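import Mathlib.Algebra.Module.ZLattice.Basic
import Mathlib.MeasureTheory.Measure.Lebesgue.VolumeOfBalls
import Mathlib.MeasureTheory.Group.FundamentalDomain
import Mathlib.Data.Matrix.Block
import Mathlib.LinearAlgebra.Matrix.Block
import Mathlib.Analysis.Real.Pi.Bounds
import Mathlib.Tactic

/-!
# Blichfeldt's packing bound in dimension twelve

`pack12`: points of `ℝ^12` whose translates under the lattice `ℤ^12` have pairwise distance at
least one for the form `A_2^6`: there are fewer than `289` of them.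
-/

set_option linter.all false

namespace Vale.Agent.P246.Pack

open MeasureTheory Matrix

/-- index type -/
abbrev Ix : Type := Fin 2 × Fin 6

/-- sum of squares -/
def q (v : Ix → ℝ) : ℝ := ∑ c, v c * v c

/-- the form `A_2^6`, with minimum one -/
def QF (x : Ix → ℝ) : ℝ :=
  ∑ k : Fin 6, (x (0, k) * x (0, k) - x (0, k) * x (1, k) + x (1, k) * x (1, k))

/-- the block -/
noncomputable def blk : Matrix (Fin 2) (Fin 2) ℝ := !![1, -1 / 2; 0, √3 / 2]

/-- the block matrix -/
noncomputable def MM : Matrix Ix Ix ℝ := Matrix.blockDiagonal (fun _ => blk)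

theorem MM_apply (x : Ix → ℝ) (i : Fin 2) (k : Fin 6) :
    MM.mulVec x (i, k) = blk i 0 * x (0, k) + blk i 1 * x (1, k) := by
  rw [Matrix.mulVec, dotProduct, Fintype.sum_prod_type]
  simp only [Fin.sum_univ_two, MM, Matrix.blockDiagonal_apply, ite_mul, zero_mul,
    Finset.sum_ite_eq, Finset.mem_univ, if_true]

theorem q_MM (x : Ix → ℝ) : q (MM.mulVec x) = QF x := by
  rw [q, QF, Fintype.sum_prod_type_right]
  apply Finset.sum_congr rfl
  intro k _
  rw [Fin.sum_univ_two, MM_apply, MM_apply]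
  have h3 : √3 * √3 = (3 : ℝ) := Real.mul_self_sqrt (by norm_num)
  simp [blk]
  linear_combination (x (1, k) * x (1, k) / 4) * h3

theorem det_blk : blk.det = √3 / 2 := by
  rw [Matrix.det_fin_two]
  simp [blk]

theorem det_MM : MM.det = 27 / 64 := by
  rw [MM, Matrix.det_blockDiagonal]
  simp only [det_blk, Finset.prod_const, Finset.card_univ, Fintype.card_fin]
  have h3 : √3 * √3 = (3 : ℝ) := Real.mul_self_sqrt (by norm_num)
  have : (√3 / 2) ^ 6 = (√3 * √3) ^ 3 / 64 := by ring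
  rw [this, h3]
  norm_num

/-- Blichfeldt's inequality -/
theorem blich {ι : Type*} (s : Finset ι) (v : ι → (Ix → ℝ))
    (h : ∀ i ∈ s, ∀ j ∈ s, i ≠ j → 1 ≤ q (v i - v j)) :
    ∑ i ∈ s, (1 - 2 * q (v i)) ≤ 1 := by
  classical
  rcases s.eq_empty_or_nonempty with rfl | hs
  · simp
  have hn : (1 : ℝ) ≤ s.card := by exact_mod_cast hs.card_pos
  have h1 : ∑ i ∈ s, ∑ j ∈ s, q (v i - v j) =
      2 * s.card * ∑ i ∈ s, q (v i) - 2 * q (∑ i ∈ s, v i) := by
    have e1 : ∀ c, ∑ i ∈ s, ∑ j ∈ s, (v i c - v j c) * (v i c - v j c) =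
        2 * s.card * ∑ i ∈ s, v i c * v i c - 2 * ((∑ i ∈ s, v i c) * (∑ i ∈ s, v i c)) := by
      intro c
      have e2 : ∀ i j, (v i c - v j c) * (v i c - v j c) =
          v i c * v i c - 2 * (v i c * v j c) + v j c * v j c := fun i j => by ring
      simp only [e2, Finset.sum_add_distrib, Finset.sum_sub_distrib, Finset.sum_const,
        nsmul_eq_mul, ← Finset.mul_sum, ← Finset.sum_mul]
      ring
    have e3 : ∑ i ∈ s, ∑ j ∈ s, q (v i - v j) =
        ∑ c, ∑ i ∈ s, ∑ j ∈ s, (v i c - v j c) * (v i c - v j c) := by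
      symm
      rw [Finset.sum_comm]
      apply Finset.sum_congr rfl
      intro i _
      rw [Finset.sum_comm]
      rfl
    rw [e3, Finset.sum_congr rfl (fun c _ => e1 c), Finset.sum_sub_distrib, ← Finset.mul_sum,
      ← Finset.mul_sum, Finset.sum_comm]
    simp [q]
  have h2 : (s.card : ℝ) * (s.card - 1) ≤ ∑ i ∈ s, ∑ j ∈ s, q (v i - v j) := by
    have h3 : ∀ i ∈ s, (s.card : ℝ) - 1 ≤ ∑ j ∈ s, q (v i - v j) := by
      intro i hi
      rw [← Finset.add_sum_erase s _ hi]
      have h4 : (s.card : ℝ) - 1 = ∑ j ∈ s.erase i, (1 : ℝ) := by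
        rw [Finset.sum_const, Finset.card_erase_of_mem hi, nsmul_eq_mul, mul_one,
          Nat.cast_sub hs.card_pos, Nat.cast_one]
      have h5 : q (v i - v i) = 0 := by simp [q]
      rw [h4, h5, zero_add]
      exact Finset.sum_le_sum fun j hj =>
        h i hi j (Finset.mem_of_mem_erase hj) (Finset.ne_of_mem_erase hj).symm
    calc (s.card : ℝ) * (s.card - 1) = ∑ i ∈ s, ((s.card : ℝ) - 1) := by
          rw [Finset.sum_const, nsmul_eq_mul]
      _ ≤ _ := Finset.sum_le_sum h3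
  have h3 : 0 ≤ q (∑ i ∈ s, v i) := Finset.sum_nonneg fun c _ => mul_self_nonneg _
  have h4 : (s.card : ℝ) * (s.card - 1) ≤ s.card * (2 * ∑ i ∈ s, q (v i)) := by linarith
  have h5 : (s.card : ℝ) - 1 ≤ 2 * ∑ i ∈ s, q (v i) :=
    le_of_mul_le_mul_left h4 (by linarith)
  rw [Finset.sum_sub_distrib, Finset.sum_const, nsmul_eq_mul, mul_one, ← Finset.mul_sum]
  linarith

/-- the step function (real valued) -/
noncomputable def gs (t : ℝ) : ℝ :=
  ∑ j ∈ Finset.range 8, (if t < j / 16 then (1 / 8 : ℝ) else 0)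

theorem gs_nonneg (t : ℝ) : 0 ≤ gs t :=
  Finset.sum_nonneg fun j _ => by split_ifs <;> norm_num

theorem gs_le (t : ℝ) (ht : 0 ≤ t) (h : gs t ≠ 0) : gs t ≤ 1 - 2 * t := by
  have h16 : 0 ≤ 16 * t := by linarith
  have h1 : ∀ j : ℕ, (t < j / 16) ↔ ⌊16 * t⌋₊ < j := by
    intro j
    rw [Nat.floor_lt h16]
    constructor <;> intro h <;> linarith
  have h2 : gs t = ∑ j ∈ Finset.range 8, (if ⌊16 * t⌋₊ < j then (1 / 8 : ℝ) else 0) := by
    unfold gs
    simp only [h1]
  have h3 : 16 * t < ⌊16 * t⌋₊ + 1 := Nat.lt_floor_add_one _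
  rw [h2] at h ⊢
  generalize ⌊16 * t⌋₊ = k at h h3 ⊢
  rcases le_or_gt 7 k with hk | hk
  · exfalso
    apply h
    apply Finset.sum_eq_zero
    intro j hj
    rw [if_neg]
    have := Finset.mem_range.1 hj
    omega
  · interval_cases k <;> simp [Finset.sum_range_succ] at h3 ⊢ <;> linarith

theorem sum_gs_le {ι : Type*} (s : Finset ι) (v : ι → (Ix → ℝ))
    (h : ∀ i ∈ s, ∀ j ∈ s, i ≠ j → 1 ≤ q (v i - v j)) :
    ∑ i ∈ s, gs (q (v i)) ≤ 1 := by
  classical
  have h0 : ∑ i ∈ s, gs (q (v i)) = ∑ i ∈ s.filter (fun i => gs (q (v i)) ≠ 0), gs (q (v i)) :=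
    (Finset.sum_filter_ne_zero s).symm
  rw [h0]
  refine le_trans (Finset.sum_le_sum fun i hi => gs_le _ ?_ (Finset.mem_filter.1 hi).2)
    (blich _ v ?_)
  · exact Finset.sum_nonneg fun c _ => mul_self_nonneg _
  · intro i hi j hj hij
    exact h i (Finset.mem_filter.1 hi).1 j (Finset.mem_filter.1 hj).1 hij

/-! ### volumes -/

theorem vol_q (c : ℝ) (hc : 0 ≤ c) :
    volume {v : Ix → ℝ | q v < c} = ENNReal.ofReal (c ^ 6 * (Real.pi ^ 6 / 720)) := by
  have h1 : {v : Ix → ℝ | q v < c} =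
      (WithLp.toLp 2) ⁻¹' (Metric.ball (0 : EuclideanSpace ℝ Ix) (√c)) := by
    ext v
    rw [Set.mem_preimage, mem_ball_zero_iff, EuclideanSpace.norm_eq]
    have : ∑ i, ‖(WithLp.toLp 2 v : EuclideanSpace ℝ Ix) i‖ ^ 2 = q v := by
      unfold q
      apply Finset.sum_congr rfl
      intro i _
      simp [sq]
    rw [this]
    constructor
    · intro h
      exact Real.sqrt_lt_sqrt (Finset.sum_nonneg fun c _ => mul_self_nonneg _) h
    · intro h
      exact (Real.sqrt_lt_sqrt_iff (Finset.sum_nonneg fun c _ => mul_self_nonneg _)).1 h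
  rw [h1, (PiLp.volume_preserving_toLp Ix).measure_preimage
    measurableSet_ball.nullMeasurableSet, EuclideanSpace.volume_ball]
  have h2 : Fintype.card Ix = 12 := rfl
  rw [h2, ← ENNReal.ofReal_pow (Real.sqrt_nonneg _), ← ENNReal.ofReal_mul (by positivity)]
  congr 1
  have h3 : ((12 : ℕ) : ℝ) / 2 + 1 = ((6 : ℕ) : ℝ) + 1 := by norm_num
  have h4 : √c ^ 12 = c ^ 6 := by
    rw [show (12 : ℕ) = 2 * 6 from rfl, pow_mul, Real.sq_sqrt hc]
  have h5 : √Real.pi ^ 12 = Real.pi ^ 6 := by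
    rw [show (12 : ℕ) = 2 * 6 from rfl, pow_mul, Real.sq_sqrt Real.pi_pos.le]
  rw [h3, Real.Gamma_nat_eq_factorial, h4, h5]
  norm_num [Nat.factorial]

theorem vol_QF (c : ℝ) (hc : 0 ≤ c) :
    volume {v : Ix → ℝ | QF v < c} = ENNReal.ofReal (64 / 27 * (c ^ 6 * (Real.pi ^ 6 / 720))) := by
  have h1 : {v : Ix → ℝ | QF v < c} = (Matrix.toLin' MM) ⁻¹' {v | q v < c} := by
    ext v
    simp [← q_MM]
  have hd : LinearMap.det (Matrix.toLin' MM) = 27 / 64 := by
    rw [LinearMap.det_toLin', det_MM]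
  rw [h1, Measure.addHaar_preimage_linearMap _ (by rw [hd]; norm_num), vol_q c hc, hd,
    ← ENNReal.ofReal_mul (abs_nonneg _)]
  congr 2
  norm_num

theorem continuous_QF : Continuous QF := by
  unfold QF
  fun_prop

theorem measurable_gs : Measurable gs := by
  unfold gs
  apply Finset.measurable_sum
  intro j _
  exact Measurable.ite measurableSet_Iio measurable_const measurable_const

theorem lint_gs : ∫⁻ x : Ix → ℝ, ENNReal.ofReal (gs (QF x)) =
    ENNReal.ofReal (64 / 27 * (Real.pi ^ 6 / 720) * (1 / 8) * (184820 / 16 ^ 6)) := by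
  have h1 : ∀ x : Ix → ℝ, ENNReal.ofReal (gs (QF x)) = ∑ j ∈ Finset.range 8,
      ENNReal.ofReal (1 / 8) * Set.indicator {x | QF x < (j : ℝ) / 16} 1 x := by
    intro x
    rw [gs, ENNReal.ofReal_sum_of_nonneg (fun j _ => by split_ifs <;> norm_num)]
    apply Finset.sum_congr rfl
    intro j _
    by_cases h : QF x < j / 16
    · rw [if_pos h, Set.indicator_of_mem (show x ∈ {x | QF x < (j : ℝ) / 16} from h)]
      simp
    · rw [if_neg h, Set.indicator_of_notMem (show x ∉ {x | QF x < (j : ℝ) / 16} from h)]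
      simp
  have hm : ∀ c : ℝ, MeasurableSet {x : Ix → ℝ | QF x < c} := fun c =>
    (isOpen_lt continuous_QF continuous_const).measurableSet
  simp_rw [h1]
  rw [lintegral_finset_sum _ (fun j _ => ((measurable_one.indicator (hm _)).const_mul _))]
  have h2 : ∀ j ∈ Finset.range 8, ∫⁻ x : Ix → ℝ, ENNReal.ofReal (1 / 8) *
      Set.indicator {x | QF x < (j : ℝ) / 16} 1 x =
      ENNReal.ofReal (64 / 27 * (Real.pi ^ 6 / 720) * (1 / 8) * ((j : ℝ) ^ 6 / 16 ^ 6)) := by
    intro j _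
    rw [lintegral_const_mul _ (measurable_one.indicator (hm _)), lintegral_indicator_one (hm _),
      vol_QF _ (by positivity), ← ENNReal.ofReal_mul (by norm_num)]
    congr 1
    ring
  rw [Finset.sum_congr rfl h2, ← ENNReal.ofReal_sum_of_nonneg (fun j _ => by positivity),
    ← Finset.mul_sum, ← Finset.sum_div]
  congr 3
  norm_num [Finset.sum_range_succ]

/-- Blichfeldt's bound -/
theorem pack12 (m : ℕ) (t : Fin m → (Ix → ℝ))
    (h : ∀ i j (z : Ix → ℤ), (i ≠ j ∨ z ≠ 0) → 1 ≤ QF (t i - t j - fun c => (z c : ℝ))) :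
    m < 289 := by
  classical
  set b := Pi.basisFun ℝ Ix with hb
  set L := Submodule.span ℤ (Set.range b) with hL
  set F := ZSpan.fundamentalDomain b with hF
  have hFd : IsAddFundamentalDomain L F (volume : Measure (Ix → ℝ)) :=
    ZSpan.isAddFundamentalDomain b volume
  have hinv : VAddInvariantMeasure L (Ix → ℝ) volume :=
    inferInstanceAs <| VAddInvariantMeasure L.toAddSubgroup (Ix → ℝ) volume
  have hvF : volume F = 1 := by
    rw [hF, ZSpan.volume_fundamentalDomain]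
    have : Matrix.of b = (1 : Matrix Ix Ix ℝ) := by
      ext i j
      simp [hb, Matrix.one_apply, Pi.single_apply, eq_comm]
    rw [this]
    simp
  have hLz : ∀ g : L, ∃ z : Ix → ℤ, (g : Ix → ℝ) = fun c => (z c : ℝ) := by
    intro g
    have h1 := (Module.Basis.mem_span_iff_repr_mem ℤ b (g : Ix → ℝ)).1 g.2
    choose z hz using h1
    refine ⟨z, ?_⟩
    funext c
    have := hz c
    simpa [hb] using this.symm
  set f : Fin m → (Ix → ℝ) → ENNReal := fun i x => ENNReal.ofReal (gs (QF (x - t i))) with hf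
  have hfm : ∀ i, Measurable (f i) := by
    intro i
    apply Measurable.ennreal_ofReal
    apply measurable_gs.comp
    exact (continuous_QF.comp (continuous_id.sub continuous_const)).measurable
  -- pointwise bound
  have hpt : ∀ x : Ix → ℝ, ∑ i, ∑' g : L, f i (-g +ᵥ x) ≤ 1 := by
    intro x
    have e1 : ∑ i, ∑' g : L, f i (-g +ᵥ x) = ∑' p : Fin m × L, f p.1 (-p.2 +ᵥ x) := by
      rw [ENNReal.tsum_prod', tsum_fintype]
    rw [e1, ENNReal.tsum_eq_iSup_sum]
    apply iSup_le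
    intro s
    have e2 : ∑ p ∈ s, f p.1 (-p.2 +ᵥ x) =
        ENNReal.ofReal (∑ p ∈ s, gs (q (MM.mulVec ((-p.2 +ᵥ x) - t p.1)))) := by
      rw [ENNReal.ofReal_sum_of_nonneg (fun _ _ => gs_nonneg _)]
      apply Finset.sum_congr rfl
      intro p _
      rw [q_MM]
    rw [e2]
    refine le_trans (ENNReal.ofReal_le_ofReal (sum_gs_le s _ ?_)) (by simp)
    intro p _ p' _ hne
    rw [← Matrix.mulVec_sub, q_MM]
    obtain ⟨z, hz⟩ := hLz (p.2 - p'.2)
    have e3 : ((-p.2 +ᵥ x) - t p.1) - ((-p'.2 +ᵥ x) - t p'.1) =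
        t p'.1 - t p.1 - fun c => (z c : ℝ) := by
      rw [← hz]
      change (-(p.2 : Ix → ℝ) + x - t p.1) - (-(p'.2 : Ix → ℝ) + x - t p'.1) =
        t p'.1 - t p.1 - ((p.2 : Ix → ℝ) - (p'.2 : Ix → ℝ))
      abel
    rw [e3]
    apply h
    by_contra hcon
    push Not at hcon
    apply hne
    ext1
    · exact hcon.1.symm
    · have : p.2 - p'.2 = 0 := by
        apply Subtype.ext
        rw [hz, hcon.2]
        funext c
        simp
      exact sub_eq_zero.1 this
  have h1 : ∀ i, ∫⁻ x, f i x = ENNReal.ofReal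
      (64 / 27 * (Real.pi ^ 6 / 720) * (1 / 8) * (184820 / 16 ^ 6)) := by
    intro i
    rw [← lint_gs]
    exact lintegral_sub_right_eq_self (fun x => ENNReal.ofReal (gs (QF x))) (t i)
  have h2 : ∑ i, ∫⁻ x, f i x ≤ 1 := by
    have hms : ∀ i (g : L), Measurable (fun x => f i (-g +ᵥ x)) := fun i g =>
      (hfm i).comp (measurable_const_vadd (-g))
    calc ∑ i, ∫⁻ x, f i x = ∑ i, ∑' g : L, ∫⁻ x in F, f i (-g +ᵥ x) := by
          apply Finset.sum_congr rfl
          intro i _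
          exact hFd.lintegral_eq_tsum' (f i)
      _ = ∑ i, ∫⁻ x in F, ∑' g : L, f i (-g +ᵥ x) := by
          apply Finset.sum_congr rfl
          intro i _
          rw [lintegral_tsum fun g => (hms i g).aemeasurable]
      _ = ∫⁻ x in F, ∑ i, ∑' g : L, f i (-g +ᵥ x) := by
          rw [lintegral_finset_sum _ (fun i _ => Measurable.ennreal_tsum (hms i))]
      _ ≤ ∫⁻ x in F, 1 := lintegral_mono (fun x => hpt x)
      _ = 1 := by simp [hvF]
  rw [Finset.sum_congr rfl (fun i _ => h1 i), Finset.sum_const, Finset.card_univ,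
    Fintype.card_fin, nsmul_eq_mul, ← ENNReal.ofReal_natCast, ← ENNReal.ofReal_mul (by positivity),
    ENNReal.ofReal_le_one] at h2
  have hpi : (958 : ℝ) ≤ Real.pi ^ 6 := by
    have h3 : (314 / 100 : ℝ) ≤ Real.pi := by
      have := Real.pi_gt_d2
      norm_num at this ⊢
      linarith
    calc (958 : ℝ) ≤ (314 / 100) ^ 6 := by norm_num
      _ ≤ Real.pi ^ 6 := pow_le_pow_left₀ (by norm_num) h3 6
  by_contra hcon
  have h4 : (289 : ℝ) ≤ m := by exact_mod_cast not_lt.1 hcon
  have h5 : (289 : ℝ) * (64 / 27 * (958 / 720) * (1 / 8) * (184820 / 16 ^ 6)) ≤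
      m * (64 / 27 * (Real.pi ^ 6 / 720) * (1 / 8) * (184820 / 16 ^ 6)) := by
    apply mul_le_mul h4 _ (by positivity) (by positivity)
    gcongr
  norm_num at h5 h2
  linarith

end Vale.Agent.P246.Pack
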