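import Mathlib.Algebra.Module.ZLattice.Basic
import Mathlib.MeasureTheory.Measure.Lebesgue.VolumeOfBalls
import Mathlib.MeasureTheory.Group.FundamentalDomain
import Mathlib.Data.Matrix.Block
import Mathlib.LinearAlgebra.Matrix.Block
import Mathlib.Analysis.Real.Pi.Bounds
import Mathlib.Tactic

/-!
# Blichfeldt's packing bound

`pack_gen`: points `t_1, ..., t_N` of `ℝ^(2h)` whose translates under `ℤ^(2h)` have pairwise
distance at least `μ` for the form `x ↦ |S x|²`:
`N * ((1/s) ∑_{j<s} (μ j / (2 s))^h * (π^h / h!)) ≤ |det S|`.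
-/

set_option linter.all false

namespace Vale.Agent.P246.Pack.Gen

open MeasureTheory Matrix

variable {ι : Type} [Fintype ι]

/-- sum of squares -/
def q (v : ι → ℝ) : ℝ := ∑ c, v c * v c

theorem q_nonneg (v : ι → ℝ) : 0 ≤ q v := Finset.sum_nonneg fun c _ => mul_self_nonneg _

/-- Blichfeldt's inequality -/
theorem blich {κ : Type*} (s : Finset κ) (v : κ → (ι → ℝ)) {μ : ℝ} (hμ : 0 < μ)
    (h : ∀ i ∈ s, ∀ j ∈ s, i ≠ j → μ ≤ q (v i - v j)) :
    ∑ i ∈ s, (1 - 2 * (q (v i) / μ)) ≤ 1 := by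
  classical
  rcases s.eq_empty_or_nonempty with rfl | hs
  · simp
  have hn : (1 : ℝ) ≤ s.card := by exact_mod_cast hs.card_pos
  have h1 : ∑ i ∈ s, ∑ j ∈ s, q (v i - v j) =
      2 * s.card * ∑ i ∈ s, q (v i) - 2 * q (∑ i ∈ s, v i) := by
    have e1 : ∀ c, ∑ i ∈ s, ∑ j ∈ s, (v i c - v j c) * (v i c - v j c) =
        2 * s.card * ∑ i ∈ s, v i c * v i c - 2 * ((∑ i ∈ s, v i c) * (∑ i ∈ s, v i c)) := by
      intro c
      have e2 : ∀ i j, (v i c - v j c) * (v i c - v j c) =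
          v i c * v i c - 2 * (v i c * v j c) + v j c * v j c := fun i j => by ring
      simp only [e2, Finset.sum_add_distrib, Finset.sum_sub_distrib, Finset.sum_const,
        nsmul_eq_mul, ← Finset.mul_sum, ← Finset.sum_mul]
      ring
    have e3 : ∑ i ∈ s, ∑ j ∈ s, q (v i - v j) =
        ∑ c, ∑ i ∈ s, ∑ j ∈ s, (v i c - v j c) * (v i c - v j c) := by
      symm
      rw [Finset.sum_comm]
      apply Finset.sum_congr rfl
      intro i _
      rw [Finset.sum_comm]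
      rfl
    rw [e3, Finset.sum_congr rfl (fun c _ => e1 c), Finset.sum_sub_distrib, ← Finset.mul_sum,
      ← Finset.mul_sum, Finset.sum_comm]
    simp [q]
  have h2 : μ * (s.card : ℝ) * (s.card - 1) ≤ ∑ i ∈ s, ∑ j ∈ s, q (v i - v j) := by
    have h3 : ∀ i ∈ s, μ * ((s.card : ℝ) - 1) ≤ ∑ j ∈ s, q (v i - v j) := by
      intro i hi
      rw [← Finset.add_sum_erase s _ hi]
      have h4 : μ * ((s.card : ℝ) - 1) = ∑ j ∈ s.erase i, μ := by
        rw [Finset.sum_const, Finset.card_erase_of_mem hi, nsmul_eq_mul,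
          Nat.cast_sub hs.card_pos, Nat.cast_one, mul_comm]
      have h5 : q (v i - v i) = 0 := by simp [q]
      rw [h4, h5, zero_add]
      exact Finset.sum_le_sum fun j hj =>
        h i hi j (Finset.mem_of_mem_erase hj) (Finset.ne_of_mem_erase hj).symm
    calc μ * (s.card : ℝ) * (s.card - 1) = ∑ i ∈ s, (μ * ((s.card : ℝ) - 1)) := by
          rw [Finset.sum_const, nsmul_eq_mul]; ring
      _ ≤ _ := Finset.sum_le_sum h3
  have h3 : 0 ≤ q (∑ i ∈ s, v i) := q_nonneg _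
  have h4 : (s.card : ℝ) * (μ * (s.card - 1)) ≤ s.card * (2 * ∑ i ∈ s, q (v i)) := by linarith
  have h5 : μ * ((s.card : ℝ) - 1) ≤ 2 * ∑ i ∈ s, q (v i) :=
    le_of_mul_le_mul_left h4 (by linarith)
  rw [Finset.sum_sub_distrib, Finset.sum_const, nsmul_eq_mul, mul_one, ← Finset.mul_sum,
    ← Finset.sum_div]
  have h6 : (s.card : ℝ) - 1 ≤ 2 * ((∑ i ∈ s, q (v i)) / μ) := by
    rw [← mul_div_assoc, le_div_iff₀ hμ]
    linarith
  linarith

/-- the step function (real valued) -/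
noncomputable def gs (s : ℕ) (μ t : ℝ) : ℝ :=
  ∑ j ∈ Finset.range s, (if t < μ * j / (2 * s) then (1 / s : ℝ) else 0)

theorem gs_nonneg (s : ℕ) (μ t : ℝ) : 0 ≤ gs s μ t :=
  Finset.sum_nonneg fun j _ => by split_ifs <;> positivity

theorem gs_le {s : ℕ} {μ t : ℝ} (hμ : 0 < μ) (ht : 0 ≤ t) (h : gs s μ t ≠ 0) :
    gs s μ t ≤ 1 - 2 * (t / μ) := by
  have hs : (0 : ℝ) < s := by
    rcases Nat.eq_zero_or_pos s with h0 | h0
    · subst h0
      exact absurd (by simp [gs]) h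
    · exact_mod_cast h0
  have h16 : 0 ≤ 2 * s * (t / μ) := by positivity
  have h1 : ∀ j : ℕ, (t < μ * j / (2 * s)) ↔ ⌊2 * s * (t / μ)⌋₊ < j := by
    intro j
    rw [Nat.floor_lt h16, lt_div_iff₀ (by positivity), ← mul_div_assoc, div_lt_iff₀ hμ]
    constructor <;> intro h <;> nlinarith
  have h2 : gs s μ t = ∑ j ∈ Finset.range s,
      (if ⌊2 * s * (t / μ)⌋₊ < j then (1 / s : ℝ) else 0) := by
    unfold gs
    simp only [h1]
  have h3 : 2 * s * (t / μ) < ⌊2 * s * (t / μ)⌋₊ + 1 := Nat.lt_floor_add_one _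
  rw [h2] at h ⊢
  generalize ⌊2 * s * (t / μ)⌋₊ = k at h h3 ⊢
  rw [← Finset.sum_filter, Finset.sum_const] at h ⊢
  have hf : (Finset.range s).filter (fun j => k < j) = Finset.Ico (k + 1) s := by
    ext j
    simp only [Finset.mem_filter, Finset.mem_range, Finset.mem_Ico]
    omega
  rw [hf, Nat.card_Ico] at h ⊢
  have hk : k + 1 ≤ s := by
    by_contra hcon
    apply h
    rw [Nat.sub_eq_zero_of_le (by omega), zero_smul]
  rw [nsmul_eq_mul, Nat.cast_sub hk]
  push_cast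
  have h5 : ((s : ℝ) - (k + 1)) * (1 / s) = 1 - (k + 1) / s := by
    field_simp
  rw [h5]
  have h6 : 2 * (t / μ) ≤ (k + 1) / s := by
    rw [le_div_iff₀ hs]
    linarith
  linarith

theorem sum_gs_le {κ : Type*} (s : Finset κ) (n : ℕ) (v : κ → (ι → ℝ)) {μ : ℝ} (hμ : 0 < μ)
    (h : ∀ i ∈ s, ∀ j ∈ s, i ≠ j → μ ≤ q (v i - v j)) :
    ∑ i ∈ s, gs n μ (q (v i)) ≤ 1 := by
  classical
  have h0 : ∑ i ∈ s, gs n μ (q (v i)) =
      ∑ i ∈ s.filter (fun i => gs n μ (q (v i)) ≠ 0), gs n μ (q (v i)) :=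
    (Finset.sum_filter_ne_zero s).symm
  rw [h0]
  refine le_trans (Finset.sum_le_sum fun i hi => gs_le hμ (q_nonneg _) (Finset.mem_filter.1 hi).2)
    (blich _ v hμ ?_)
  intro i hi j hj hij
  exact h i (Finset.mem_filter.1 hi).1 j (Finset.mem_filter.1 hj).1 hij

/-! ### volumes -/

theorem vol_q [Nonempty ι] {h : ℕ} (hc : Fintype.card ι = 2 * h) (c : ℝ) (hc0 : 0 ≤ c) :
    volume {v : ι → ℝ | q v < c} = ENNReal.ofReal (c ^ h * (Real.pi ^ h / h.factorial)) := by
  have h1 : {v : ι → ℝ | q v < c} =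
      (WithLp.toLp 2) ⁻¹' (Metric.ball (0 : EuclideanSpace ℝ ι) (√c)) := by
    ext v
    rw [Set.mem_preimage, mem_ball_zero_iff, EuclideanSpace.norm_eq]
    have : ∑ i, ‖(WithLp.toLp 2 v : EuclideanSpace ℝ ι) i‖ ^ 2 = q v := by
      unfold q
      apply Finset.sum_congr rfl
      intro i _
      simp [sq]
    rw [this]
    constructor
    · intro h
      exact Real.sqrt_lt_sqrt (q_nonneg _) h
    · intro h
      exact (Real.sqrt_lt_sqrt_iff (q_nonneg _)).1 h
  rw [h1, (PiLp.volume_preserving_toLp ι).measure_preimage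
    measurableSet_ball.nullMeasurableSet, EuclideanSpace.volume_ball]
  rw [hc, ← ENNReal.ofReal_pow (Real.sqrt_nonneg _), ← ENNReal.ofReal_mul (by positivity)]
  congr 1
  have h3 : ((2 * h : ℕ) : ℝ) / 2 + 1 = ((h : ℕ) : ℝ) + 1 := by push_cast; ring
  have h4 : √c ^ (2 * h) = c ^ h := by
    rw [pow_mul, Real.sq_sqrt hc0]
  have h5 : √Real.pi ^ (2 * h) = Real.pi ^ h := by
    rw [pow_mul, Real.sq_sqrt Real.pi_pos.le]
  rw [h3, Real.Gamma_nat_eq_factorial, h4, h5]

theorem vol_QF [Nonempty ι] [DecidableEq ι] {h : ℕ} (hc : Fintype.card ι = 2 * h)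
    (S : Matrix ι ι ℝ) (hS : S.det ≠ 0) (c : ℝ) (hc0 : 0 ≤ c) :
    volume {v : ι → ℝ | q (S.mulVec v) < c} =
      ENNReal.ofReal (|S.det|⁻¹ * (c ^ h * (Real.pi ^ h / h.factorial))) := by
  have h1 : {v : ι → ℝ | q (S.mulVec v) < c} = (Matrix.toLin' S) ⁻¹' {v | q v < c} := by
    ext v
    simp
  have hd : LinearMap.det (Matrix.toLin' S) = S.det := LinearMap.det_toLin' S
  rw [h1, Measure.addHaar_preimage_linearMap _ (by rw [hd]; exact hS), vol_q hc c hc0, hd,
    ← ENNReal.ofReal_mul (abs_nonneg _), abs_inv]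

theorem continuous_q (S : Matrix ι ι ℝ) : Continuous (fun v : ι → ℝ => q (S.mulVec v)) := by
  unfold q Matrix.mulVec dotProduct
  fun_prop

theorem measurable_gs (n : ℕ) (μ : ℝ) : Measurable (gs n μ) := by
  unfold gs
  apply Finset.measurable_sum
  intro j _
  exact Measurable.ite measurableSet_Iio measurable_const measurable_const

theorem lint_gs [Nonempty ι] [DecidableEq ι] {h : ℕ} (hc : Fintype.card ι = 2 * h)
    (S : Matrix ι ι ℝ) (hS : S.det ≠ 0) (n : ℕ) {μ : ℝ} (hμ : 0 < μ) :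
    ∫⁻ x : ι → ℝ, ENNReal.ofReal (gs n μ (q (S.mulVec x))) =
    ENNReal.ofReal (|S.det|⁻¹ * ((1 / n) * ∑ j ∈ Finset.range n,
      (μ * j / (2 * n)) ^ h * (Real.pi ^ h / h.factorial))) := by
  have h1 : ∀ x : ι → ℝ, ENNReal.ofReal (gs n μ (q (S.mulVec x))) = ∑ j ∈ Finset.range n,
      ENNReal.ofReal (1 / n) *
        Set.indicator {x | q (S.mulVec x) < μ * (j : ℝ) / (2 * n)} 1 x := by
    intro x
    rw [gs, ENNReal.ofReal_sum_of_nonneg (fun j _ => by split_ifs <;> positivity)]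
    apply Finset.sum_congr rfl
    intro j _
    by_cases h : q (S.mulVec x) < μ * (j : ℝ) / (2 * n)
    · rw [if_pos h, Set.indicator_of_mem
        (show x ∈ {x | q (S.mulVec x) < μ * (j : ℝ) / (2 * n)} from h)]
      simp
    · rw [if_neg h, Set.indicator_of_notMem
        (show x ∉ {x | q (S.mulVec x) < μ * (j : ℝ) / (2 * n)} from h)]
      simp
  have hm : ∀ c : ℝ, MeasurableSet {x : ι → ℝ | q (S.mulVec x) < c} := fun c =>
    (isOpen_lt (continuous_q S) continuous_const).measurableSet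
  simp_rw [h1]
  rw [lintegral_finset_sum _ (fun j _ => ((measurable_one.indicator (hm _)).const_mul _))]
  have h2 : ∀ j ∈ Finset.range n, ∫⁻ x : ι → ℝ, ENNReal.ofReal (1 / n) *
      Set.indicator {x | q (S.mulVec x) < μ * (j : ℝ) / (2 * n)} 1 x =
      ENNReal.ofReal (|S.det|⁻¹ * ((1 / n) * ((μ * j / (2 * n)) ^ h *
        (Real.pi ^ h / h.factorial)))) := by
    intro j _
    rw [lintegral_const_mul _ (measurable_one.indicator (hm _)), lintegral_indicator_one (hm _),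
      vol_QF hc S hS _ (by positivity), ← ENNReal.ofReal_mul (by positivity)]
    congr 1
    ring
  rw [Finset.sum_congr rfl h2, ← ENNReal.ofReal_sum_of_nonneg (fun j _ => by positivity),
    ← Finset.mul_sum, ← Finset.mul_sum]

/-- Blichfeldt's bound -/
theorem pack_gen [Nonempty ι] [DecidableEq ι] {h : ℕ} (hc : Fintype.card ι = 2 * h)
    (S : Matrix ι ι ℝ) (hS : S.det ≠ 0) (n : ℕ) {μ : ℝ} (hμ : 0 < μ)
    (m : ℕ) (t : Fin m → (ι → ℝ))
    (H : ∀ i j (z : ι → ℤ), (i ≠ j ∨ z ≠ 0) →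
      μ ≤ q (S.mulVec (t i - t j - fun c => (z c : ℝ)))) :
    (m : ℝ) * ((1 / n) * ∑ j ∈ Finset.range n,
      (μ * j / (2 * n)) ^ h * (Real.pi ^ h / h.factorial)) ≤ |S.det| := by
  classical
  set b := Pi.basisFun ℝ ι with hb
  set L := Submodule.span ℤ (Set.range b) with hL
  set F := ZSpan.fundamentalDomain b with hF
  have hFd : IsAddFundamentalDomain L F (volume : Measure (ι → ℝ)) :=
    ZSpan.isAddFundamentalDomain b volume
  have hinv : VAddInvariantMeasure L (ι → ℝ) volume :=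
    inferInstanceAs <| VAddInvariantMeasure L.toAddSubgroup (ι → ℝ) volume
  have hvF : volume F = 1 := by
    rw [hF, ZSpan.volume_fundamentalDomain]
    have : Matrix.of b = (1 : Matrix ι ι ℝ) := by
      ext i j
      simp [hb, Matrix.one_apply, Pi.single_apply, eq_comm]
    rw [this]
    simp
  have hLz : ∀ g : L, ∃ z : ι → ℤ, (g : ι → ℝ) = fun c => (z c : ℝ) := by
    intro g
    have h1 := (Module.Basis.mem_span_iff_repr_mem ℤ b (g : ι → ℝ)).1 g.2
    choose z hz using h1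
    refine ⟨z, ?_⟩
    funext c
    have := hz c
    simpa [hb] using this.symm
  set f : Fin m → (ι → ℝ) → ENNReal :=
    fun i x => ENNReal.ofReal (gs n μ (q (S.mulVec (x - t i)))) with hf
  have hfm : ∀ i, Measurable (f i) := by
    intro i
    apply Measurable.ennreal_ofReal
    apply (measurable_gs n μ).comp
    exact ((continuous_q S).comp (continuous_id.sub continuous_const)).measurable
  -- pointwise bound
  have hpt : ∀ x : ι → ℝ, ∑ i, ∑' g : L, f i (-g +ᵥ x) ≤ 1 := by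
    intro x
    have e1 : ∑ i, ∑' g : L, f i (-g +ᵥ x) = ∑' p : Fin m × L, f p.1 (-p.2 +ᵥ x) := by
      rw [ENNReal.tsum_prod', tsum_fintype]
    rw [e1, ENNReal.tsum_eq_iSup_sum]
    apply iSup_le
    intro s
    have e2 : ∑ p ∈ s, f p.1 (-p.2 +ᵥ x) =
        ENNReal.ofReal (∑ p ∈ s, gs n μ (q (S.mulVec ((-p.2 +ᵥ x) - t p.1)))) := by
      rw [ENNReal.ofReal_sum_of_nonneg (fun _ _ => gs_nonneg _ _ _)]
    rw [e2]
    refine le_trans (ENNReal.ofReal_le_ofReal (sum_gs_le s n _ hμ ?_)) (by simp)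
    intro p _ p' _ hne
    rw [← Matrix.mulVec_sub]
    obtain ⟨z, hz⟩ := hLz (p.2 - p'.2)
    have e3 : ((-p.2 +ᵥ x) - t p.1) - ((-p'.2 +ᵥ x) - t p'.1) =
        t p'.1 - t p.1 - fun c => (z c : ℝ) := by
      rw [← hz]
      change (-(p.2 : ι → ℝ) + x - t p.1) - (-(p'.2 : ι → ℝ) + x - t p'.1) =
        t p'.1 - t p.1 - ((p.2 : ι → ℝ) - (p'.2 : ι → ℝ))
      abel
    rw [e3]
    apply H
    by_contra hcon
    push Not at hcon
    apply hne
    ext1
    · exact hcon.1.symm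
    · have : p.2 - p'.2 = 0 := by
        apply Subtype.ext
        rw [hz, hcon.2]
        funext c
        simp
      exact sub_eq_zero.1 this
  have h1 : ∀ i, ∫⁻ x, f i x = ENNReal.ofReal (|S.det|⁻¹ * ((1 / n) * ∑ j ∈ Finset.range n,
      (μ * j / (2 * n)) ^ h * (Real.pi ^ h / h.factorial))) := by
    intro i
    rw [← lint_gs hc S hS n hμ]
    exact lintegral_sub_right_eq_self
      (fun x => ENNReal.ofReal (gs n μ (q (S.mulVec x)))) (t i)
  have h2 : ∑ i, ∫⁻ x, f i x ≤ 1 := by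
    have hms : ∀ i (g : L), Measurable (fun x => f i (-g +ᵥ x)) := fun i g =>
      (hfm i).comp (measurable_const_vadd (-g))
    calc ∑ i, ∫⁻ x, f i x = ∑ i, ∑' g : L, ∫⁻ x in F, f i (-g +ᵥ x) := by
          apply Finset.sum_congr rfl
          intro i _
          exact hFd.lintegral_eq_tsum' (f i)
      _ = ∑ i, ∫⁻ x in F, ∑' g : L, f i (-g +ᵥ x) := by
          apply Finset.sum_congr rfl
          intro i _
          rw [lintegral_tsum fun g => (hms i g).aemeasurable]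
      _ = ∫⁻ x in F, ∑ i, ∑' g : L, f i (-g +ᵥ x) := by
          rw [lintegral_finset_sum _ (fun i _ => Measurable.ennreal_tsum (hms i))]
      _ ≤ ∫⁻ x in F, 1 := lintegral_mono (fun x => hpt x)
      _ = 1 := by simp [hvF]
  rw [Finset.sum_congr rfl (fun i _ => h1 i), Finset.sum_const, Finset.card_univ,
    Fintype.card_fin, nsmul_eq_mul, ← ENNReal.ofReal_natCast, ← ENNReal.ofReal_mul (by positivity),
    ENNReal.ofReal_le_one] at h2
  have h3 : 0 < |S.det| := abs_pos.2 hS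
  have h4 : (m : ℝ) * (|S.det|⁻¹ * ((1 / n) * ∑ j ∈ Finset.range n,
      (μ * j / (2 * n)) ^ h * (Real.pi ^ h / h.factorial))) =
      |S.det|⁻¹ * ((m : ℝ) * ((1 / n) * ∑ j ∈ Finset.range n,
      (μ * j / (2 * n)) ^ h * (Real.pi ^ h / h.factorial))) := by ring
  rw [h4, inv_mul_le_iff₀ h3, mul_one] at h2
  exact h2

end Vale.Agent.P246.Pack.Gen
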